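import Vale.Agent.P352.G0.Defs
import Vale.Agent.P352.H15.Lor
import Vale.Agent.P352.H15.BkDefs
import Vale.Agent.P352.H746.PtGen
import Vale.Agent.P352.H746.Vjm

set_option linter.all false

noncomputable section

open MeasureTheory SchwartzMap Complex Filter Topology
open scoped SchwartzMap ComplexConjugate ENNReal NNReal LineDeriv

namespace Vale.Agent.P352.G0.H15

open Vale.Agent.P352.H15 Vale.Agent.P352.G0

open GF (Ix V Fn Sch ev pd bar sim bas o IsLor IsTest)
open H246 H496 H755 H746
open Vale.Agent.P352.H746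
open UniformSpace (Completion)

variable {D : Type*} [NormedAddCommGroup D] [InnerProductSpace ℂ D]
variable {Q : GF.Theory D} {T : Ix → Ix → GF.Fld D} {J : Ix → GF.Fld D}
variable {A : (V → V) → D → D} {K C : V → D → D}

/-! ### Elementary facts -/

lemma K_add (h : NGen Q J A K C) {a : V} (ha : IsNull a) (v w : D) :
    K a (v + w) = K a v + K a w := by
  refine ext_inner_left ℂ fun z => ?_
  rw [← h.symm a z (v + w) ha, inner_add_right, inner_add_right, h.symm a z v ha,
    h.symm a z w ha]

lemma K_smul (h : NGen Q J A K C) {a : V} (ha : IsNull a) (c : ℂ) (v : D) :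
    K a (c • v) = c • K a v := by
  refine ext_inner_left ℂ fun z => ?_
  rw [← h.symm a z (c • v) ha, inner_smul_right, inner_smul_right, h.symm a z v ha]

/-- the difference of the conformal field centred at `x` and the one centred at the origin -/
def Xf (a x : V) : V → V := fun z =>
  -(2 * GF.mdot a x) • z + (2 * GF.mdot x z) • a - (2 * GF.mdot a z) • x + cK a x

lemma isSim_Xf (a x : V) : IsSim (-(2 * GF.mdot a x)) (Xf a x) := by
  refine ⟨cK a x, fun m n => 2 * GF.eta m * (x m * a n - a m * x n), fun m n => ?_, fun z n => ?_⟩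
  · ring
  · unfold Xf
    simp only [Pi.add_apply, Pi.sub_apply, Pi.smul_apply, smul_eq_mul, GF.mdot, Fin.sum_univ_four]
    ring

lemma Xf_add (a b x : V) (c : ℝ) : Xf (a + c • b) x = fun z => Xf a x z + c • Xf b x z := by
  funext z n
  simp only [Xf, cK, Pi.add_apply, Pi.sub_apply, Pi.smul_apply, smul_eq_mul, GF.mdot,
    Fin.sum_univ_four]
  ring

lemma isSim_zero : IsSim 0 (fun _ => (0 : V)) := by
  refine ⟨0, 0, fun m n => by simp, fun z n => by simp⟩

lemma A_zero (h : Rep Q A) (v : D) : A (fun _ => 0) v = 0 := by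
  have := h.add 0 0 1 (fun _ => 0) (fun _ => 0) v isSim_zero isSim_zero
  simpa using this

lemma A_sum (h : Rep Q A) {ι : Type*} (s : Finset ι) (n : ι → V) (c : ι → ℝ) (x : V) (v : D) :
    A (Xf (∑ i ∈ s, c i • n i) x) v = ∑ i ∈ s, (c i : ℂ) • A (Xf (n i) x) v := by
  classical
  induction s using Finset.induction_on with
  | empty =>
    have e : Xf 0 x = fun _ => 0 := by
      funext z k
      simp [Xf, cK, GF.mdot]
    simp only [Finset.sum_empty]
    rw [e]
    exact A_zero h v
  | insert i s hi ih =>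
    rw [Finset.sum_insert hi, Finset.sum_insert hi, add_comm (c i • n i), Xf_add,
      h.add _ _ _ _ _ _ (isSim_Xf _ _) (isSim_Xf _ _), ih, add_comm]

/-- the similitudes as linear maps -/
def Ulin (Q : GF.Theory D) {s : ℝ} (hs : 0 < s) {L : Ix → V} (hL : IsLor L) (a : V) :
    D →ₗ[ℂ] D where
  toFun := Q.U s L a
  map_add' := U_add hs hL a
  map_smul' := U_smul hs hL a

lemma U_sum {s : ℝ} (hs : 0 < s) {L : Ix → V} (hL : IsLor L) (a : V) {ι : Type*} (t : Finset ι)
    (c : ι → ℂ) (w : ι → D) : Q.U s L a (∑ i ∈ t, c i • w i) = ∑ i ∈ t, c i • Q.U s L a (w i) := by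
  show Ulin Q hs hL a _ = ∑ i ∈ t, c i • Ulin Q hs hL a _
  rw [map_sum]
  simp only [map_smul]

/-- ROW R2-Z: on the vectors `J_m(f) Ω` the generators `K a` depend linearly on `a`. -/
theorem k_lin (h : NGen Q J A K C) (hJ : IsVirial Q T J) {k : ℕ} (n : Fin k → V)
    (c : Fin k → ℝ) (hn : ∀ i, IsNull (n i)) (hc : ∑ i, c i • n i = 0) (m : Ix) (f : Fn)
    (hf : GF.IsTest f) : ∑ i, (c i : ℂ) • K (n i) (J m f Q.vac) = 0 :=
  h.klin k n c hn hc m f hf

end Vale.Agent.P352.G0.H15
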