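import Vale.Agent.P352.G0.Defs
import Vale.Agent.P352.G0.Bk
import Vale.Agent.P352.H148.Kd

set_option linter.all false

noncomputable section

open MeasureTheory SchwartzMap Complex Filter Topology
open scoped SchwartzMap ComplexConjugate ENNReal LineDeriv

namespace Vale.Agent.P352.G0.H746

open Vale.Agent.P352.H746 Vale.Agent.P352.G0

open GF (Ix V Fn Sch ev pd bar sim bas o)
open H246 H496 H755 H15
open Vale.Agent.P352.H15
open UniformSpace (Completion)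

variable {D : Type*} [NormedAddCommGroup D] [InnerProductSpace ℂ D]
variable {Q : GF.Theory D} {T : Ix → Ix → GF.Fld D} {J : Ix → GF.Fld D}
variable {A : (V → V) → D → D} {K C : V → D → D}

/-! ### Covariance of the pieces -/

lemma J_sim (hJ : IsVirial Q T J) {s : ℝ} (hs : 0 < s) {L : Ix → V} (hL : GF.IsLor L) (x : V)
    (m : Ix) (F : 𝓢(Mink, ℂ)) (v : D) : J m (fl F) (Q.U s L x v) =
      ∑ k, (s * L k m : ℂ) • Q.U s L x (J k (fl (simS s hs hL x F)) v) := by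
  rw [hJ.cov m s L x (fl F) v hs hL (isTest_fl F), fl_sim s hs hL x F]

lemma ct_sim (hJ : IsVirial Q T J) {s : ℝ} (hs : 0 < s) {L : Ix → V} (hL : GF.IsLor L) (x c : V)
    (F : 𝓢(Mink, ℂ)) (v : D) : ctL hJ (sim 1 L 0 c) (Q.U s L x v) F =
      (s : ℂ) • Q.U s L x (ctL hJ c v (simS s hs hL x F)) := by
  rw [ctL_apply, ctL_apply]
  unfold ct
  rw [H15.U_sum hs hL]
  simp only [J_sim hJ hs hL, Finset.smul_sum, smul_smul]
  rw [Finset.sum_comm]
  refine Finset.sum_congr rfl fun k _ => ?_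
  rw [← Finset.sum_smul]
  congr 1
  have h1 : ∑ m, GF.eta m * sim 1 L 0 c m * L k m = GF.eta k * c k := by
    have h2 : ∀ m, sim 1 L 0 c m = ∑ j, c j * L j m := by
      intro m; simp [sim]
    simp only [h2, Finset.mul_sum, Finset.sum_mul]
    rw [Finset.sum_comm]
    have h3 : ∀ j, ∑ m, GF.eta m * (c j * L j m) * L k m = c j * bas j (GF.eta j) k := by
      intro j
      rw [← hL.1 j k]
      unfold GF.mdot
      rw [Finset.mul_sum]
      exact Finset.sum_congr rfl fun m _ => by ring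
    simp only [h3]
    unfold bas
    rw [Finset.sum_eq_single k]
    · rw [if_pos rfl]; ring
    · intro j _ hj
      rw [if_neg (Ne.symm hj), mul_zero]
    · intro h; exact absurd (Finset.mem_univ _) h
  have h4 : ∑ m, ((GF.eta m * sim 1 L 0 c m : ℝ) : ℂ) * ((s : ℂ) * (L k m : ℂ)) =
      (s : ℂ) * ((∑ m, GF.eta m * sim 1 L 0 c m * L k m : ℝ) : ℂ) := by
    push_cast
    rw [Finset.mul_sum]
    exact Finset.sum_congr rfl fun m _ => by ring
  rw [h4, h1]

lemma U_sub3 {s : ℝ} (hs : 0 < s) {L : Ix → V} (hL : GF.IsLor L) (x : V) (v w : D) :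
    Q.U s L x (v - w) = Q.U s L x v - Q.U s L x w := Vale.Agent.P352.H746.U_sub' hs hL x v w

lemma xj_sim (hJ : IsVirial Q T J) {s : ℝ} (hs : 0 < s) {L : Ix → V} (hL : GF.IsLor L)
    (F : 𝓢(Mink, ℂ)) (v : D) : xjL hJ (Q.U s L 0 v) F =
      ((s ^ 2 : ℝ) : ℂ) • Q.U s L 0 (xjL hJ v (simS s hs hL 0 F)) := by
  have h1 : ∀ (v : D) (F : 𝓢(Mink, ℂ)), xjL hJ v F =
      ∑ b, ((GF.eta b : ℝ) : ℂ) • J b (fl (Xm b F)) v := by
    intro v F
    unfold xjL
    rw [ContinuousLinearMap.sum_apply]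
    rfl
  rw [h1, h1, H15.U_sum hs hL]
  simp only [J_sim hJ hs hL, Finset.smul_sum, smul_smul]
  rw [Finset.sum_comm]
  -- the coordinate functions
  have h2 : ∀ b, simS s hs hL 0 (Xm b F) =
      ∑ j, ((s * L j b : ℝ) : ℂ) • Xm j (simS s hs hL 0 F) := by
    intro b
    ext x
    rw [simS0_apply, Xm_apply, SchwartzMap.sum_apply]
    simp only [SchwartzMap.smul_apply, Xm_apply, smul_eq_mul, simS0_apply]
    have : ((s • lam L x : Mink) b : ℂ) = ∑ j, ((s * L j b : ℝ) : ℂ) * (x j : ℂ) := by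
      rw [PiLp.smul_apply, lam_apply, smul_eq_mul]
      push_cast
      rw [Finset.mul_sum]
      exact Finset.sum_congr rfl fun j _ => by ring
    rw [this, Finset.sum_mul]
    exact Finset.sum_congr rfl fun j _ => by ring
  have h3 : ∀ k b, Q.U s L 0 (J k (fl (simS s hs hL 0 (Xm b F))) v) =
      ∑ j, ((s * L j b : ℝ) : ℂ) • Q.U s L 0 (J k (fl (Xm j (simS s hs hL 0 F))) v) := by
    intro k b
    have h4 : J k (fl (simS s hs hL 0 (Xm b F))) v =
        ∑ j, ((s * L j b : ℝ) : ℂ) • J k (fl (Xm j (simS s hs hL 0 F))) v := by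
      have h5 : J k (fl (simS s hs hL 0 (Xm b F))) v =
        fcl (ct_fld hJ k) v (simS s hs hL 0 (Xm b F)) := rfl
      rw [h5, h2, map_sum]
      simp only [map_smul]
      rfl
    rw [h4, H15.U_sum hs hL]
  refine Finset.sum_congr rfl fun k _ => ?_
  simp only [h3, Finset.smul_sum, smul_smul]
  rw [Finset.sum_comm]
  simp only [← Finset.sum_smul]
  rw [Finset.sum_eq_single k]
  · congr 1
    have h6 := hL.1 k k
    unfold GF.mdot bas at h6
    rw [if_pos rfl] at h6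
    have h7 : ∑ b, ((GF.eta b : ℝ) : ℂ) * ((s : ℂ) * (L k b : ℂ)) * ((s * L k b : ℝ) : ℂ) =
        ((s ^ 2 * ∑ b, GF.eta b * L k b * L k b : ℝ) : ℂ) := by
      push_cast
      rw [Finset.mul_sum]
      exact Finset.sum_congr rfl fun b _ => by ring
    rw [h7, h6]
    push_cast
    ring
  · intro j _ hj
    have h6 := hL.1 k j
    unfold GF.mdot bas at h6
    rw [if_neg hj] at h6
    have h7 : ∑ b, ((GF.eta b : ℝ) : ℂ) * ((s : ℂ) * (L k b : ℂ)) * ((s * L j b : ℝ) : ℂ) =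
        ((s ^ 2 * ∑ b, GF.eta b * L k b * L j b : ℝ) : ℂ) := by
      push_cast
      rw [Finset.mul_sum]
      exact Finset.sum_congr rfl fun b _ => by ring
    rw [h7, h6, mul_zero, ofReal_zero, zero_smul]
  · intro h; exact absurd (Finset.mem_univ _) h

lemma kdL_sim (Δ : ℝ) {s r : ℝ} (hs : 0 < s) {L : Ix → V} (hL : GF.IsLor L) {a b : V}
    (hab : sim 1 L 0 a = r • b) (F : 𝓢(Mink, ℂ)) :
    kdL a Δ (simS s hs hL 0 F) = ((r / s : ℝ) : ℂ) • simS s hs hL 0 (kdL b Δ F) := by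
  rw [kdL_eq, kdL_eq, H148.kdS_sim Δ hs hL hab]

lemma axL_sim {s : ℝ} (hs : 0 < s) {L : Ix → V} (hL : GF.IsLor L) (c : V) (F : 𝓢(Mink, ℂ)) :
    axL c (simS s hs hL 0 F) = ((s⁻¹ : ℝ) : ℂ) • simS s hs hL 0 (axL (sim 1 L 0 c) F) := by
  have h2 : ∀ (a : V) f, axL a f = H993.axS a f := by
    intro a f
    unfold axL H993.axS
    rw [ContinuousLinearMap.sum_apply]
    rfl
  ext x
  rw [h2, h2, SchwartzMap.smul_apply, simS0_apply, H993.axS_apply, H993.axS_apply, simS0_apply,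
    smul_eq_mul]
  have h3 : GF.mdot (sim 1 L 0 c) (s • lam L x).ofLp = s * GF.mdot c x.ofLp := by
    have : (s • lam L x).ofLp = s • (lam L x).ofLp := rfl
    rw [this, H148.gm_smul', H148.lam_ofLp, mdot_sim hL]
  rw [h3]
  have hs' : (s : ℂ) ≠ 0 := by exact_mod_cast hs.ne'
  push_cast
  field_simp

lemma ct_smul (hJ : IsVirial Q T J) (r : ℝ) (b : V) (v : D) (F : 𝓢(Mink, ℂ)) :
    ctL hJ (r • b) v F = (r : ℂ) • ctL hJ b v F := by
  rw [ctL_apply, ctL_apply]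
  unfold ct
  rw [Finset.smul_sum]
  refine Finset.sum_congr rfl fun m _ => ?_
  rw [smul_smul]
  congr 1
  simp only [Pi.smul_apply, smul_eq_mul]
  push_cast
  ring

lemma ct_sim' (hJ : IsVirial Q T J) {s : ℝ} (hs : 0 < s) {L : Ix → V} (hL : GF.IsLor L) (c : V)
    (F : 𝓢(Mink, ℂ)) (v : D) : Q.U s L 0 (ctL hJ c v (simS s hs hL 0 F)) =
      ((s⁻¹ : ℝ) : ℂ) • ctL hJ (sim 1 L 0 c) (Q.U s L 0 v) F := by
  have hs' : (s : ℂ) ≠ 0 := by exact_mod_cast hs.ne'
  rw [ct_sim hJ hs hL 0 c, smul_smul]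
  have : ((s⁻¹ : ℝ) : ℂ) * (s : ℂ) = 1 := by push_cast; field_simp
  rw [this, one_smul]

lemma lp_sim (hJ : IsVirial Q T J) {s r : ℝ} (hs : 0 < s) {L : Ix → V} (hL : GF.IsLor L)
    {a b : V} (hab : sim 1 L 0 a = r • b) (c : V) (F : 𝓢(Mink, ℂ)) (v : D) :
    Q.U s L 0 (lpL hJ a c v (simS s hs hL 0 F)) =
      ((r / s ^ 2 : ℝ) : ℂ) • lpL hJ b (sim 1 L 0 c) (Q.U s L 0 v) F := by
  have h1 : ∀ (a c : V) (v : D) (F : 𝓢(Mink, ℂ)), lpL hJ a c v F = ctL hJ c v (kdL a 3 F) +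
      ((2 * GF.mdot a c : ℝ) : ℂ) • xjL hJ v F - (2 : ℂ) • ctL hJ a v (axL c F) := by
    intro a c v F
    rfl
  have hs' : (s : ℂ) ≠ 0 := by exact_mod_cast hs.ne'
  rw [h1, h1, U_sub3 hs hL, U_add hs hL, U_smul hs hL, U_smul hs hL, kdL_sim 3 hs hL hab,
    axL_sim hs hL, map_smul, map_smul, U_smul hs hL, U_smul hs hL, ct_sim' hJ hs hL,
    ct_sim' hJ hs hL, hab, ct_smul]
  have h2 : Q.U s L 0 (xjL hJ v (simS s hs hL 0 F)) =
      (((s ^ 2)⁻¹ : ℝ) : ℂ) • xjL hJ (Q.U s L 0 v) F := by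
    rw [xj_sim hJ hs hL, smul_smul]
    have : (((s ^ 2)⁻¹ : ℝ) : ℂ) * ((s ^ 2 : ℝ) : ℂ) = 1 := by push_cast; field_simp
    rw [this, one_smul]
  rw [h2]
  have h3 : GF.mdot a c = r * GF.mdot b (sim 1 L 0 c) := by
    rw [← mdot_sim hL a c, hab, H148.gm_smul]
  rw [h3]
  simp only [smul_add, smul_sub, smul_smul]
  congr 1
  · congr 1
    · congr 1
      push_cast
      field_simp
    · congr 1
      push_cast
      field_simp
  · congr 1
    push_cast
    field_simp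

/-- covariance of the bracket under the homogeneous similitudes -/
lemma bk_sim (hJ : IsVirial Q T J) (h : NGen Q J A K C) {s r : ℝ} {L : Ix → V} {a b : V}
    (hs : 0 < s) (hr : 0 < r) (hL : GF.IsLor L) (ha : IsNull a) (hb : IsNull b)
    (hab : sim 1 L 0 a = r • b) (c : V) (F : 𝓢(Mink, ℂ)) (v : D) :
    Q.U s L 0 (bk J K a c (fl (simS s hs hL 0 F)) v) =
      ((r / s ^ 2 : ℝ) : ℂ) • bk J K b (sim 1 L 0 c) (fl F) (Q.U s L 0 v) := by
  have hs' : (s : ℂ) ≠ 0 := by exact_mod_cast hs.ne'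
  rw [bk_eq hJ, bk_eq hJ, U_add hs hL, U_sub3 hs hL, U_smul hs hL, lp_sim hJ hs hL hab,
    h.cov s L r a b _ hs hr hL ha hb hab, ct_sim' hJ hs hL, ct_sim' hJ hs hL, K_smul h hb,
    h.cov s L r a b _ hs hr hL ha hb hab]
  have h4 : ctL hJ (sim 1 L 0 c) (((r / s : ℝ) : ℂ) • K b (Q.U s L 0 v)) F =
      ((r / s : ℝ) : ℂ) • ctL hJ (sim 1 L 0 c) (K b (Q.U s L 0 v)) F := by
    rw [ctL_apply, ctL_apply]
    unfold ct
    rw [Finset.smul_sum]
    refine Finset.sum_congr rfl fun m _ => ?_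
    rw [Vale.Agent.P352.H746.fld_smul (ct_fld hJ m) (isTest_fl F), smul_comm]
  rw [h4]
  simp only [smul_add, smul_sub, smul_smul]
  congr 1
  · congr 1
    · congr 1
      push_cast
      field_simp
    · congr 1
      push_cast
      field_simp
  · congr 1
    ring

end Vale.Agent.P352.G0.H746

end
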