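import Vale.Agent.P352.G0.Defs
import Vale.Agent.P352.G0.Bk2

set_option linter.all false

noncomputable section

open MeasureTheory SchwartzMap Complex Filter Topology
open scoped SchwartzMap ComplexConjugate ENNReal LineDeriv

namespace Vale.Agent.P352.G0.H746

open Vale.Agent.P352.H746 Vale.Agent.P352.G0

open GF (Ix V Fn Sch ev pd bar sim bas o)
open H246 H496 H755 H15
open Vale.Agent.P352.H15
open UniformSpace (Completion)

variable {D : Type*} [NormedAddCommGroup D] [InnerProductSpace ℂ D]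
variable {Q : GF.Theory D} {T : Ix → Ix → GF.Fld D} {J : Ix → GF.Fld D}
variable {A : (V → V) → D → D} {K C : V → D → D}

lemma A_addv (h : H15.Rep Q A) {r : ℝ} {X : V → V} (hX : IsSim r X) (v w : D) :
    A X (v + w) = A X v + A X w := by
  refine ext_inner_left ℂ fun z => ?_
  rw [← A_symm h hX z, inner_add_right, inner_add_right, A_symm h hX z, A_symm h hX z]

lemma A_smulv (h : H15.Rep Q A) {r : ℝ} {X : V → V} (hX : IsSim r X) (c : ℂ) (v : D) :
    A X (c • v) = c • A X v := by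
  refine ext_inner_left ℂ fun z => ?_
  rw [← A_symm h hX z, inner_smul_right, inner_smul_right, A_symm h hX z]

lemma A_sumv (h : H15.Rep Q A) {r : ℝ} {X : V → V} (hX : IsSim r X) {ι : Type*} (t : Finset ι)
    (c : ι → ℂ) (u : ι → D) : A X (∑ i ∈ t, c i • u i) = ∑ i ∈ t, c i • A X (u i) := by
  classical
  induction t using Finset.induction_on with
  | empty =>
    have := A_smulv h hX (0 : ℂ) (0 : D)
    simpa using this
  | insert i t hi ih =>
    rw [Finset.sum_insert hi, Finset.sum_insert hi, A_addv h hX, A_smulv h hX, ih]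

/-- the infinitesimal covariance of `c·J` under the field of `tra` -/
lemma A_ct (h : H15.Rep Q A) (hJ : IsVirial Q T J) (a c x : V) (F : 𝓢(Mink, ℂ)) (u : D) :
    A (Xf a x) (ctL hJ c u F) = ctL hJ c (A (Xf a x) u) F + I • (
      ((-(2 * GF.mdot a x) : ℝ) : ℂ) • ctL hJ c u F +
      (((2 * GF.mdot a c : ℝ) : ℂ) • ctL hJ x u F - ((2 * GF.mdot c x : ℝ) : ℂ) • ctL hJ a u F) +
      ctL hJ c u (vfS (fun m n => 2 * GF.eta m * (x m * a n - a m * x n)) (-(2 * GF.mdot a x))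
        (cK a x) F)) := by
  have hX := isSim_Xf a x
  have hw : ∀ m n, GF.eta n * (2 * GF.eta m * (x m * a n - a m * x n)) =
      -(GF.eta m * (2 * GF.eta n * (x n * a m - a n * x m))) := fun m n => by ring
  have hX' : ∀ z n, Xf a x z n = cK a x n + (-(2 * GF.mdot a x)) * z n +
      ∑ m, z m * (2 * GF.eta m * (x m * a n - a m * x n)) := by
    intro z n
    unfold Xf
    simp only [Pi.add_apply, Pi.sub_apply, Pi.smul_apply, smul_eq_mul, GF.mdot,
      Fin.sum_univ_four]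
    ring
  have e1 : ∀ (c : V) (u : D) (F : 𝓢(Mink, ℂ)), ctL hJ c u F =
      ∑ m, ((GF.eta m * c m : ℝ) : ℂ) • J m (fl F) u := by
    intro c u F
    rw [ctL_apply]
    rfl
  have e2 : ctL hJ c u (vfS (fun m n => 2 * GF.eta m * (x m * a n - a m * x n))
      (-(2 * GF.mdot a x)) (cK a x) F) =
      ∑ m, ((GF.eta m * c m : ℝ) : ℂ) • J m (vf (Xf a x) (fl F)) u := by
    rw [e1, fl_vfS hX']
  rw [e2, e1, e1, e1, e1, A_sumv h hX]
  have e3 : ∀ m, A (Xf a x) (J m (fl F) u) = J m (fl F) (A (Xf a x) u) + I • (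
      ((-(2 * GF.mdot a x) : ℝ) : ℂ) • J m (fl F) u +
      ∑ k, ((2 * GF.eta k * (x k * a m - a k * x m) : ℝ) : ℂ) • J k (fl F) u +
      J m (vf (Xf a x) (fl F)) u) := fun m => A_J h hJ hw hX' (isTest_fl F) m u
  simp only [e3, smul_add, smul_sub, Finset.sum_add_distrib]
  congr 1
  have e4 : ∀ m (y : D), ((GF.eta m * c m : ℝ) : ℂ) • I • y = I • ((GF.eta m * c m : ℝ) : ℂ) • y :=
    fun m y => smul_comm _ _ _
  simp only [e4, ← Finset.smul_sum, ← smul_add, ← smul_sub]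
  congr 1
  congr 1
  congr 1
  · rw [Finset.smul_sum]
    exact Finset.sum_congr rfl fun m _ => smul_comm _ _ _
  · simp only [Finset.smul_sum, smul_smul]
    rw [Finset.sum_comm, ← Finset.sum_sub_distrib]
    refine Finset.sum_congr rfl fun k _ => ?_
    rw [← Finset.sum_smul, ← sub_smul]
    congr 1
    simp only [GF.mdot]
    simp only [Fin.sum_univ_four]
    push_cast
    ring

/-! ### Translations -/

lemma isLor1 : GF.IsLor GF.one := isLor_one

lemma simS_one (x : V) (F : 𝓢(Mink, ℂ)) :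
    simS 1 one_pos isLor_one x F = tauS (-(WithLp.toLp 2 x)) F := by
  ext z
  rw [simS_apply, tauS_apply]
  congr 1
  ext n
  rw [sim_one]
  simp only [Pi.add_apply, PiLp.sub_apply, PiLp.neg_apply]
  ring

lemma ct_tau (hJ : IsVirial Q T J) (x c : V) (F : 𝓢(Mink, ℂ)) (v : D) :
    Q.U 1 GF.one x (ctL hJ c v (tauS (-(WithLp.toLp 2 x)) F)) = ctL hJ c (Q.U 1 GF.one x v) F := by
  have h := ct_sim hJ one_pos isLor_one x c F v
  have e : sim 1 GF.one 0 c = c := by
    rw [sim_one]; funext n; simp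
  rw [e, simS_one, ofReal_one, one_smul] at h
  exact h.symm

lemma J_tau (hJ : IsVirial Q T J) (x : V) (m : Ix) (F : 𝓢(Mink, ℂ)) (v : D) :
    Q.U 1 GF.one x (J m (fl (tauS (-(WithLp.toLp 2 x)) F)) v) = J m (fl F) (Q.U 1 GF.one x v) := by
  have h := J_sim hJ one_pos isLor_one x m F v
  simp only [simS_one, ofReal_one, one_mul] at h
  rw [sum_one' (fun k => Q.U 1 GF.one x (J k (fl (tauS (-(WithLp.toLp 2 x)) F)) v))] at h
  exact h.symm

lemma xj_tau (hJ : IsVirial Q T J) (x : V) (F : 𝓢(Mink, ℂ)) (v : D) :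
    Q.U 1 GF.one x (xjL hJ v (tauS (-(WithLp.toLp 2 x)) F)) =
      xjL hJ (Q.U 1 GF.one x v) F - ctL hJ x (Q.U 1 GF.one x v) F := by
  have h1 : ∀ (v : D) (F : 𝓢(Mink, ℂ)), xjL hJ v F =
      ∑ b, ((GF.eta b : ℝ) : ℂ) • J b (fl (Xm b F)) v := by
    intro v F
    unfold xjL
    rw [ContinuousLinearMap.sum_apply]
    rfl
  have e1 : ∀ (c : V) (u : D) (F : 𝓢(Mink, ℂ)), ctL hJ c u F =
      ∑ m, ((GF.eta m * c m : ℝ) : ℂ) • J m (fl F) u := by
    intro c u F
    rw [ctL_apply]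
    rfl
  rw [h1, h1, e1, H15.U_sum one_pos isLor_one, ← Finset.sum_sub_distrib]
  refine Finset.sum_congr rfl fun b _ => ?_
  have h2 : Xm b (tauS (-(WithLp.toLp 2 x)) F) =
      tauS (-(WithLp.toLp 2 x)) (Xm b F + (-(x b : ℂ)) • F) := by
    ext z
    rw [Xm_apply, tauS_apply, tauS_apply, SchwartzMap.add_apply, Xm_apply,
      SchwartzMap.smul_apply, smul_eq_mul]
    have : ((z - -(WithLp.toLp 2 x) : Mink) b : ℂ) = (z b : ℂ) + (x b : ℂ) := by
      rw [PiLp.sub_apply, PiLp.neg_apply]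
      push_cast
      ring
    rw [this]
    ring
  rw [h2, J_tau hJ]
  have h3 : J b (fl (Xm b F + (-(x b : ℂ)) • F)) (Q.U 1 GF.one x v) =
      J b (fl (Xm b F)) (Q.U 1 GF.one x v) + (-(x b : ℂ)) • J b (fl F) (Q.U 1 GF.one x v) := by
    have := (fcl (ct_fld hJ b) (Q.U 1 GF.one x v)).map_add (Xm b F) ((-(x b : ℂ)) • F)
    rw [map_smul] at this
    exact this
  rw [h3, smul_add, smul_smul, sub_eq_add_neg, ← neg_smul]
  congr 2
  push_cast
  ring

lemma ax_tau (x c : V) (F : 𝓢(Mink, ℂ)) : axL c (tauS (-(WithLp.toLp 2 x)) F) =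
    tauS (-(WithLp.toLp 2 x)) (axL c F - (GF.mdot c x : ℂ) • F) := by
  have h2 : ∀ (a : V) f, axL a f = H993.axS a f := by
    intro a f
    unfold axL H993.axS
    rw [ContinuousLinearMap.sum_apply]
    rfl
  ext z
  rw [h2, h2, tauS_apply, H993.axS_apply, SchwartzMap.sub_apply, SchwartzMap.smul_apply,
    H993.axS_apply, tauS_apply, smul_eq_mul]
  have : (z - -(WithLp.toLp 2 x) : Mink).ofLp = z.ofLp + x := by
    funext n
    simp [PiLp.sub_apply, PiLp.neg_apply]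
  rw [this, H148.gm_add]
  push_cast
  ring

lemma kd_tau (a x : V) (Δ : ℝ) (F : 𝓢(Mink, ℂ)) : kdL a Δ (tauS (-(WithLp.toLp 2 x)) F) =
    tauS (-(WithLp.toLp 2 x)) (kdL a Δ F -
      vfS (fun m n => 2 * GF.eta m * (x m * a n - a m * x n)) (-(2 * GF.mdot a x)) (cK a x) F +
      (((8 - 2 * Δ) * GF.mdot a x : ℝ) : ℂ) • F) := by
  have hX' : ∀ z n, Xf a x z n = cK a x n + (-(2 * GF.mdot a x)) * z n +
      ∑ m, z m * (2 * GF.eta m * (x m * a n - a m * x n)) := by
    intro z n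
    unfold Xf
    simp only [Pi.add_apply, Pi.sub_apply, Pi.smul_apply, smul_eq_mul, GF.mdot,
      Fin.sum_univ_four]
    ring
  have h5 := fl_vfS hX' F
  ext z
  rw [kdL_eq, kdL_eq, tauS_apply, SchwartzMap.add_apply, SchwartzMap.sub_apply,
    SchwartzMap.smul_apply, H148.kdS_apply, H148.kdS_apply, H993.dS_apply, H993.dS_apply,
    H148.Eu_eq, H148.Eu_eq]
  simp only [H148.lineDeriv_tau, tauS_apply]
  set y : Mink := z - -(WithLp.toLp 2 x) with hy
  have h6 : vfS (fun m n => 2 * GF.eta m * (x m * a n - a m * x n)) (-(2 * GF.mdot a x))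
      (cK a x) F y = ∑ n, (Xf a x y.ofLp n : ℂ) * (∂_{eb n} F : 𝓢(Mink, ℂ)) y := by
    have h7 := congrFun h5 y.ofLp
    have h8 : vf (Xf a x) (fl F) y.ofLp =
        ∑ n, (Xf a x y.ofLp n : ℂ) * (∂_{eb n} F : 𝓢(Mink, ℂ)) y := by
      unfold vf
      simp only [pd_fl]
      rfl
    rw [← h8, ← h7]
    rfl
  rw [h6]
  have e3 : ∀ n, z n = y n - x n := by
    intro n
    rw [hy, PiLp.sub_apply, PiLp.neg_apply]
    ring
  have e4 : z.ofLp = y.ofLp - x := funext fun n => e3 n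
  simp only [e4, Xf, cK, Pi.add_apply, Pi.sub_apply, Pi.smul_apply, smul_eq_mul, GF.mdot]
  simp only [Fin.sum_univ_four]
  push_cast
  ring

lemma lp_tau (hJ : IsVirial Q T J) (a c x : V) (F : 𝓢(Mink, ℂ)) (v : D) :
    Q.U 1 GF.one x (lpL hJ a c v (tauS (-(WithLp.toLp 2 x)) F)) =
      lpL hJ a c (Q.U 1 GF.one x v) F - (
      ((-(2 * GF.mdot a x) : ℝ) : ℂ) • ctL hJ c (Q.U 1 GF.one x v) F +
      (((2 * GF.mdot a c : ℝ) : ℂ) • ctL hJ x (Q.U 1 GF.one x v) F -
        ((2 * GF.mdot c x : ℝ) : ℂ) • ctL hJ a (Q.U 1 GF.one x v) F) +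
      ctL hJ c (Q.U 1 GF.one x v) (vfS (fun m n => 2 * GF.eta m * (x m * a n - a m * x n))
        (-(2 * GF.mdot a x)) (cK a x) F)) := by
  have h1 : ∀ (a c : V) (v : D) (F : 𝓢(Mink, ℂ)), lpL hJ a c v F = ctL hJ c v (kdL a 3 F) +
      ((2 * GF.mdot a c : ℝ) : ℂ) • xjL hJ v F - (2 : ℂ) • ctL hJ a v (axL c F) := by
    intro a c v F
    rfl
  rw [h1, h1, U_sub3 one_pos isLor_one, U_add one_pos isLor_one, U_smul one_pos isLor_one,
    U_smul one_pos isLor_one, kd_tau, ax_tau, ct_tau, ct_tau, xj_tau, map_add, map_sub, map_sub,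
    map_smul, map_smul]
  simp only [smul_sub, smul_smul]
  have e1 : (((8 - 2 * 3) * GF.mdot a x : ℝ) : ℂ) = -((-(2 * GF.mdot a x) : ℝ) : ℂ) := by
    push_cast; ring
  have e2 : (2 : ℂ) * (GF.mdot c x : ℂ) = ((2 * GF.mdot c x : ℝ) : ℂ) := by push_cast; ring
  rw [e1, e2, neg_smul]
  abel

lemma C_ct (hJ : IsVirial Q T J) (h : NGen Q J A K C) {a : V} (ha : IsNull a) (c : V)
    (F : 𝓢(Mink, ℂ)) (v : D) : C a (ctL hJ c v F) = ctL hJ c (C a v) F := by
  have e1 : ∀ (u : D), ctL hJ c u F = ∑ m, ((GF.eta m * c m : ℝ) : ℂ) • J m (fl F) u := by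
    intro u
    rw [ctL_apply]
    rfl
  rw [e1, e1, h.C_sum ha]
  refine Finset.sum_congr rfl fun m _ => ?_
  rw [h.C_smul ha, h.comJ a m _ _ ha (isTest_fl _)]

/-- covariance of the bracket under translations -/
lemma bk_tau (hJ : IsVirial Q T J) (h : NGen Q J A K C) {a : V} (ha : IsNull a) (c x : V)
    (F : 𝓢(Mink, ℂ)) (v : D) :
    Q.U 1 GF.one x (bk J K a c (fl (tauS (-(WithLp.toLp 2 x)) F)) v) =
      bk J K a c (fl F) (Q.U 1 GF.one x v) := by
  set u := Q.U 1 GF.one x v with hu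
  have htra : ∀ z : D, Q.U 1 GF.one x (K a z) =
      K a (Q.U 1 GF.one x z) + A (Xf a x) (Q.U 1 GF.one x z) -
        ((2 * GF.mdot a x : ℝ) : ℂ) • C a (Q.U 1 GF.one x z) := by
    intro z
    have h1 := h.tra a x (Q.U 1 GF.one x z) ha
    have h2 : Q.U 1 GF.one (-x) (Q.U 1 GF.one x z) = z := by
      have h3 := U1_U1_all (Q := Q) (-(WithLp.toLp 2 x)) (WithLp.toLp 2 x) z
      rw [neg_add_cancel, U1_zero_all] at h3
      exact h3
    rw [h2] at h1
    exact h1
  rw [bk_eq hJ, bk_eq hJ, U_add one_pos isLor_one, U_sub3 one_pos isLor_one,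
    U_smul one_pos isLor_one, lp_tau hJ, htra, ct_tau hJ, ct_tau hJ, htra,
    A_ct h.toRep hJ, C_ct hJ h ha]
  have h5 : ctL hJ c (K a u + A (Xf a x) u - ((2 * GF.mdot a x : ℝ) : ℂ) • C a u) F =
      ctL hJ c (K a u) F + ctL hJ c (A (Xf a x) u) F -
        ((2 * GF.mdot a x : ℝ) : ℂ) • ctL hJ c (C a u) F := by
    have e1 : ∀ (u : D), ctL hJ c u F = ∑ m, ((GF.eta m * c m : ℝ) : ℂ) • J m (fl F) u := by
      intro u
      rw [ctL_apply]
      rfl
    rw [e1, e1, e1, e1, ← Finset.sum_add_distrib, Finset.smul_sum, ← Finset.sum_sub_distrib]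
    refine Finset.sum_congr rfl fun m _ => ?_
    rw [smul_comm (((2 * GF.mdot a x : ℝ) : ℂ)), ← smul_add, ← smul_sub]
    congr 1
    obtain ⟨B1, -, hadj⟩ := Q.adj (J m) (ct_fld hJ m)
    refine ext_inner_left ℂ fun z => ?_
    have h6 : ∀ u, inner ℂ z (J m (fl F) u) = inner ℂ (B1 (bar (fl F)) z) u := by
      intro u
      rw [← inner_conj_symm, hadj (fl F) u z (isTest_fl F), inner_conj_symm]
    rw [h6, inner_sub_right, inner_add_right, inner_sub_right, inner_add_right, inner_smul_right,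
      inner_smul_right, h6, h6, h6]
  rw [h5]
  simp only [smul_add, smul_sub]
  abel

/-- R2a: covariance of the bracket -/
theorem bk_cov (hJ : IsVirial Q T J) (h : NGen Q J A K C) {s r : ℝ} {L : Ix → V} {a b : V}
    (hs : 0 < s) (hr : 0 < r) (hL : GF.IsLor L) (ha : IsNull a) (hb : IsNull b)
    (hab : sim 1 L 0 a = r • b) (c x : V) {f : Fn} (hf : GF.IsTest f) (v : D) :
    Q.U s L x (bk J K a c (fun z => f (sim s L x z)) v) =
      ((r / s ^ 2 : ℝ) : ℂ) • bk J K b (sim 1 L 0 c) f (Q.U s L x v) := by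
  obtain ⟨F, rfl⟩ := exists_fl hf
  have hmul : ∀ w : D, Q.U s L x w = Q.U 1 GF.one x (Q.U s L 0 w) := by
    intro w
    rw [h.mul 1 GF.one x s L 0 w one_pos hs isLor_one hL]
    have e1 : (fun m => sim 1 GF.one 0 (L m)) = L := by
      funext m
      rw [sim_one]
      funext n
      simp
    have e2 : sim 1 GF.one x 0 = x := by
      rw [sim_one]
      funext n
      simp
    rw [e1, e2, one_mul]
  have h1 : (fun z => fl F (sim s L x z)) =
      fl (simS s hs hL 0 (tauS (-(WithLp.toLp 2 x)) F)) := by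
    rw [fl_sim s hs hL x F]
    congr 1
    ext z
    rw [simS_apply, simS_apply, tauS_apply]
    congr 1
    ext n
    simp only [sim, PiLp.sub_apply, PiLp.neg_apply, Pi.zero_apply]
    ring
  rw [h1, hmul, hmul, bk_sim hJ h hs hr hL ha hb hab, U_smul one_pos isLor_one, bk_tau hJ h hb]

end Vale.Agent.P352.G0.H746

end
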