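import Vale.Agent.P352.G0.Defs
import Vale.Agent.P352.G0.R3a
import Vale.Agent.P352.H746.Flow3

set_option linter.all false

noncomputable section

open MeasureTheory SchwartzMap Complex Filter Topology
open scoped SchwartzMap ComplexConjugate ENNReal LineDeriv

namespace Vale.Agent.P352.G0.H148

open Vale.Agent.P352.H148 Vale.Agent.P352.G0

open GF (Ix V Fn Sch ev pd bar sim bas o)
open H246 H496 H755 H731 H746 H993 H15
open Vale.Agent.P352.H731 Vale.Agent.P352.H746 Vale.Agent.P352.H15

variable {D : Type*} [NormedAddCommGroup D] [InnerProductSpace ℂ D]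
variable {Q : GF.Theory D} {T : Ix → Ix → GF.Fld D} {J : Ix → GF.Fld D} {A : (V → V) → D → D} {K C : V → D → D}

/-- **R3.** `K a` acts on a covariant vector valued distribution of dimension two as on a
quasi-primary field. -/
theorem prim (h : NGen Q J A K C) {Y : Fn → D} (hCY : ∀ f, GF.IsTest f → Ker C (Y f))
    (hl : ∀ f g c, GF.IsTest f → GF.IsTest g → Y (fun x => f x + c * g x) = Y f + c • Y g)
    (hc : Continuous fun g => Y (ev g))
    (hcov : ∀ s L x f, 0 < s → GF.IsLor L → GF.IsTest f →
      Y f = ((s ^ 2 : ℝ) : ℂ) • Q.U s L x (Y fun z => f (sim s L x z)))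
    {a : V} (ha : IsNull a) {f : Fn} (hf : GF.IsTest f) : K a (Y f) = -(I • Y (kd a 2 f)) := by
  refine prim0 h hCY hl hc hcov (fun r X f hX hf => ?_) ha hf
  have h1 := A_vec h.toRep hl hc (d := 2) hcov hX hf
  rw [h1, smul_add]
  rfl

end Vale.Agent.P352.G0.H148

end
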