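import Vale.Agent.P352.G0.Defs
import Vale.Agent.P352.H993.TrVac
import Vale.Agent.P352.G0.R4

set_option linter.all false

noncomputable section

open MeasureTheory SchwartzMap Complex Filter Topology
open scoped SchwartzMap ComplexConjugate ENNReal LineDeriv ContDiff FourierTransform

/-!
# P352 (helper993, with helper148): the trace of the stress tensor on the vacuum
-/

namespace Vale.Agent.P352.G0.H15

open Vale.Agent.P352.H15 Vale.Agent.P352.G0

open GF (Ix V Fn Sch ev pd bar sim bas o)
open H246 H993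
open H496 (IsNull)

variable {D : Type*} [NormedAddCommGroup D] [InnerProductSpace ℂ D] {Q : GF.Theory D}
variable {T : Ix → Ix → GF.Fld D} {J : Ix → GF.Fld D} {A : (V → V) → D → D} {K C : V → D → D}

/-- **The trace of the stress tensor on the vacuum.** -/
theorem trace_vac (hT : Q.IsStress T) (hJ : IsVirial Q T J) (h : NGen Q J A K C) {Y : Fn → D}
    (h2 : (∀ a b f, IsNull a → IsNull b → GF.IsTest f →
        bk J K a b f Q.vac + bk J K b a f Q.vac = ((2 * GF.mdot a b : ℝ) : ℂ) • Y f) ∧
      (∀ f g c, GF.IsTest f → GF.IsTest g → Y (fun x => f x + c * g x) = Y f + c • Y g) ∧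
      (Continuous fun g => Y (ev g)) ∧
      (∀ s L x f, 0 < s → GF.IsLor L → GF.IsTest f →
        Y f = ((s ^ 2 : ℝ) : ℂ) • Q.U s L x (Y fun z => f (sim s L x z))) ∧
      ∀ a f, IsNull a → GF.IsTest f →
        ∑ m, bk J K a (fun n => if n = m then GF.eta m else 0) (pd m f) Q.vac =
          Y (fun x => ∑ m, (a m : ℂ) * pd m f x))
    (h3 : ∀ a f, IsNull a → GF.IsTest f → K a (Y f) = -(Complex.I • Y (kd a 2 f)))
    {f : Fn} (hf : GF.IsTest f) : GF.tr T f Q.vac = (Complex.I / 4) • Y (box f) := by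
  obtain ⟨F, rfl⟩ := exists_fl hf
  have h4 := Xi_zero hT hJ h2.2.1 h2.2.2.1 h2.2.2.2.1
    (fun a f g ha => H148.r4_symm hT hJ h h2 h3 ha f g) F
  rw [box_fl]
  exact sub_eq_zero.1 h4

end Vale.Agent.P352.G0.H15

end
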