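import Vale.Agent.P352.G0.Defs
import Vale.Agent.P352.H15.Enl
import Vale.Agent.P352.H15.Lor
import Vale.Agent.P352.G0.Bk3
import Vale.Agent.P352.G0.Ten
import Vale.Agent.P352.G0.R3
import Vale.Agent.P352.G0.TrFin
import Vale.Agent.P352.G0.Al
import Vale.Agent.P352.H496.LTr
import Vale.Agent.P352.H496.Imp
import Vale.Agent.P352.H755.R7

set_option linter.all false

/-!
# P352: the improvement field from conformal generators
-/

noncomputable section

open MeasureTheory Filter Topology SchwartzMap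
open scoped SchwartzMap ComplexConjugate LineDeriv

namespace Vale.Agent.P352.G0.H15

open Vale.Agent.P352.H15 Vale.Agent.P352.G0

open GF (Ix V Fn Fld Theory Sch IsLor bas eta o sim pd tr improve ev bar Sep)
open H246 H496 H755 H746 H846
open Vale.Agent.P352.H746 Vale.Agent.P352.H846

variable {D : Type*} [NormedAddCommGroup D] [InnerProductSpace ℂ D]
variable {Q : GF.Theory D} {T : Ix → Ix → GF.Fld D} {J : Ix → GF.Fld D} {A : (V → V) → D → D}
  {K C : V → D → D}

/-- a null vector -/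
def a0 : V := fun n => if n = 0 ∨ n = 1 then 1 else 0

/-- a null vector -/
def b0 : V := fun n => if n = 0 then 1 / 2 else if n = 1 then -(1 / 2) else 0

lemma npr0 : NPr a0 b0 := by
  refine ⟨⟨?_, ?_⟩, ⟨?_, ?_⟩, ?_⟩
  · simp [GF.mdot, a0, eta, o, Fin.sum_univ_four]
  · simp [a0, o]
  · simp [GF.mdot, b0, eta, o, Fin.sum_univ_four]
  · simp [b0, o]
  · simp [GF.mdot, a0, b0, eta, o, Fin.sum_univ_four]
    norm_num

lemma eta_sq_c (m : Ix) : (eta m : ℂ) * (eta m : ℂ) = 1 := by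
  fin_cases m <;> simp [eta, o]

/-- test functions -/
lemma isTest_pd {m : Ix} {f : Fn} (hf : GF.IsTest f) : GF.IsTest (pd m f) := by
  obtain ⟨F, rfl⟩ := exists_fl hf
  rw [pd_fl]
  exact isTest_fl _

/-- the trace of the improved tensor -/
lemma tr_improve {L : Fld D}
    (hlin : ∀ f g (c : ℂ) v, GF.IsTest f → GF.IsTest g →
      L (fun x => f x + c * g x) v = L f v + c • L g v) {f : Fn} (hf : GF.IsTest f) (v : D) :
    tr (improve T L) f v = tr T f v - (3 : ℂ) • L (box f) v := by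
  have hz : L (fun _ => 0) v = 0 := by
    have h0 : GF.IsTest (fun _ : V => (0 : ℂ)) := ⟨0, rfl⟩
    have := hlin (fun _ => 0) (fun _ => 0) 1 v h0 h0
    simp at this
    exact this
  have h2 : ∀ k, GF.IsTest (pd k (pd k f)) := fun k => isTest_pd (isTest_pd hf)
  have hsm : ∀ (c : ℂ) g, GF.IsTest g → L (fun x => c * g x) v = c • L g v := by
    intro c g hg
    have := hlin (fun _ => 0) g c v ⟨0, rfl⟩ hg
    simpa [hz] using this
  have hbox : L (box f) v = ∑ k, (eta k : ℂ) • L (pd k (pd k f)) v := by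
    have e : box f = fun x => ((eta 0 : ℂ) * pd 0 (pd 0 f) x) + 1 * (((eta 1 : ℂ) * pd 1 (pd 1 f) x)
        + 1 * (((eta 2 : ℂ) * pd 2 (pd 2 f) x) + 1 * ((eta 3 : ℂ) * pd 3 (pd 3 f) x))) := by
      funext x
      simp only [box, Fin.sum_univ_four]
      ring
    have ht : ∀ (c : ℂ) g, GF.IsTest g → GF.IsTest (fun x => c * g x) := by
      rintro c g ⟨G, rfl⟩
      exact ⟨c • G, rfl⟩
    have ha : ∀ (c : ℂ) g g', GF.IsTest g → GF.IsTest g' → GF.IsTest (fun x => g x + c * g' x) := by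
      rintro c g g' ⟨G, rfl⟩ ⟨G', rfl⟩
      exact ⟨G + c • G', rfl⟩
    have h3 := ht (eta 3) _ (h2 3)
    have h23 := ha 1 _ _ (ht (eta 2) _ (h2 2)) h3
    have h123 := ha 1 _ _ (ht (eta 1) _ (h2 1)) h23
    rw [e, hlin _ _ 1 v (ht _ _ (h2 0)) h123, hlin _ _ 1 v (ht _ _ (h2 1)) h23,
      hlin _ _ 1 v (ht _ _ (h2 2)) h3, hsm _ _ (h2 0), hsm _ _ (h2 1), hsm _ _ (h2 2),
      hsm _ _ (h2 3), Fin.sum_univ_four]
    simp only [one_smul]
    abel
  rw [hbox]
  unfold tr improve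
  simp only [smul_sub, smul_add, Finset.sum_sub_distrib, Finset.sum_add_distrib]
  have e1 : ∑ m : Ix, (eta m : ℂ) • ((eta m * eta m : ℂ) • L (pd m (pd m f)) v) =
      ∑ k, (eta k : ℂ) • L (pd k (pd k f)) v := by
    refine Finset.sum_congr rfl fun m _ => ?_
    rw [eta_sq_c, one_smul]
  have e2 : ∀ w : D, ∑ m : Ix, (eta m : ℂ) • ((bas m (eta m) m : ℂ) • w) = (4 : ℂ) • w := by
    intro w
    have : ∀ m : Ix, (eta m : ℂ) • ((bas m (eta m) m : ℂ) • w) = w := by
      intro m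
      rw [smul_smul]
      simp [bas, eta_sq_c]
    simp only [this]
    rw [Finset.sum_const]
    simp [← Nat.cast_smul_eq_nsmul ℂ]
  rw [e1, e2]
  module

lemma ker_J (hJ : IsVirial Q T J) (h : NGen Q J A K C) {f : Fn} (hf : GF.IsTest f) (m : Ix)
    {v : D} (hv : Ker C v) : Ker C (J m f v) := by
  intro a ha
  rw [h.comJ a m f v ha hf, hv a ha]
  have h1 := Vale.Agent.P352.H746.fld_smul (Q.bose_fld _ (hJ.bose m)) hf (0 : ℂ) (0 : D)
  rwa [zero_smul, zero_smul] at h1

lemma ker_ct (hJ : IsVirial Q T J) (h : NGen Q J A K C) {f : Fn} (hf : GF.IsTest f) (c : V)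
    {v : D} (hv : Ker C v) : Ker C (ct J c f v) := by
  unfold ct
  exact h.ker_sum _ fun m _ => h.ker_smul _ (ker_J hJ h hf m hv)

lemma ker_bk (hJ : IsVirial Q T J) (h : NGen Q J A K C) {f : Fn} (hf : GF.IsTest f) {a : V}
    (ha : IsNull a) (c : V) : Ker C (bk J K a c f Q.vac) := by
  have hv : Ker C Q.vac := h.ker_vac
  obtain ⟨F, rfl⟩ := exists_fl hf
  have hK : Ker C (K a (ct J c (fl F) Q.vac)) := by
    intro b hb
    have e : ct J c (fl F) Q.vac = ∑ m, ((eta m * c m : ℝ) : ℂ) • J m (fl F) Q.vac := by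
      unfold ct
      refine Finset.sum_congr rfl fun m _ => ?_
      push_cast
      rfl
    rw [e]
    have e2 : K a (∑ m, ((eta m * c m : ℝ) : ℂ) • J m (fl F) Q.vac) =
        ∑ m, ((eta m * c m : ℝ) : ℂ) • K a (J m (fl F) Q.vac) := by
      refine ext_inner_left ℂ fun z => ?_
      rw [← h.symm a _ _ ha, inner_sum, inner_sum]
      refine Finset.sum_congr rfl fun m _ => ?_
      rw [inner_smul_right, inner_smul_right, h.symm a _ _ ha]
    rw [e2, h.C_sum hb]
    refine Finset.sum_eq_zero fun m _ => ?_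
    rw [h.C_smul hb, h.kJ b a m (fl F) hb ha (isTest_fl F), smul_zero]
  have hK0 : K a Q.vac = 0 := G0.H731.K_vac h ha
  unfold bk
  refine h.ker_add (h.ker_sub hK
    (ker_ct hJ h hf c (by rw [hK0]; exact fun b hb => h.C_zero hb))) (h.ker_smul _
      (h.ker_sub (h.ker_add ?_
    (h.ker_smul _ (h.ker_sum _ fun b _ => h.ker_smul _ ?_))) (h.ker_smul _ ?_)))
  · rw [← fl_kdL]
    exact ker_ct hJ h (isTest_fl _) c hv
  · rw [← fl_Xm]
    exact ker_J hJ h (isTest_fl _) b hv
  · rw [← fl_axL]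
    exact ker_ct hJ h (isTest_fl _) a hv

end Vale.Agent.P352.G0.H15

end
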